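import Vale.Agent.P247.Torus.Defs
import Vale.Agent.P204.Torus.Param
import Vale.Agent.P204.Torus.Cube

/-!
P247: averaging of closed forms on the four-torus, mean values and integration by parts.
-/

open MeasureTheory Set Filter Topology
open scoped BigOperators

namespace Vale.Agent.P247.Torus

open Vale.Agent.P204.Torus

/-- Cohomologous closed forms. -/
def Coh (α β : V → Form) : Prop := ∃ η : V → V, Smooth η ∧ ∀ x, β x = α x + d1 η x

lemma smooth_const {F : Type*} [NormedAddCommGroup F] [NormedSpace ℝ F] (c : F) :
    Smooth fun _ : V => c :=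
  ⟨contDiff_const, fun _ _ => rfl⟩

lemma d1_const (c : V) (x : V) : d1 (fun _ => c) x = 0 := by
  ext k; simp [d1_apply]

lemma d1_add {a b : V → V} (ha : Smooth a) (hb : Smooth b) (x : V) :
    d1 (fun x => a x + b x) x = d1 a x + d1 b x := by
  ext k
  simp only [d1_apply, fderiv_fun_add (ha.differentiableAt x) (hb.differentiableAt x),
    PiLp.add_apply, add_apply, Pi.add_apply]
  ring

lemma d1_smul_const {a : V → V} (ha : Smooth a) (r : ℝ) (x : V) :
    d1 (fun x => r • a x) x = r • d1 a x := by
  ext k
  simp only [d1_apply, fderiv_fun_const_smul (ha.differentiableAt x) r, PiLp.smul_apply,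
    smul_apply, Pi.smul_apply, smul_eq_mul]
  ring

lemma Coh.refl (α : V → Form) : Coh α α :=
  ⟨fun _ => 0, smooth_const 0, fun x => by rw [d1_const, add_zero]⟩

lemma Coh.trans {α β γ : V → Form} (h : Coh α β) (h' : Coh β γ) : Coh α γ := by
  obtain ⟨a, ha, hab⟩ := h
  obtain ⟨b, hb, hbc⟩ := h'
  refine ⟨fun x => a x + b x,
    ⟨ha.smooth.add hb.smooth, fun x n => by simp [ha.periodic x n, hb.periodic x n]⟩, fun x => ?_⟩
  rw [d1_add ha hb, hbc, hab, add_assoc]

lemma Coh.symm {α β : V → Form} (h : Coh α β) : Coh β α := by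
  obtain ⟨a, ha, hab⟩ := h
  refine ⟨fun x => (-1 : ℝ) • a x,
    ⟨ha.smooth.const_smul _, fun x n => by simp [ha.periodic x n]⟩, fun x => ?_⟩
  rw [d1_smul_const ha, hab]
  simp

/-- The affine combination of cohomologous forms is cohomologous. -/
lemma Coh.combine {α β γ : V → Form} (h : Coh α β) (h' : Coh α γ) (r s : ℝ) :
    Coh α fun x => α x + r • (β x - α x) + s • (γ x - β x) := by
  obtain ⟨a, ha, hab⟩ := h
  obtain ⟨b, hb, hbc⟩ := h'
  refine ⟨fun x => (r - s) • a x + s • b x,
    ⟨(ha.smooth.const_smul _).add (hb.smooth.const_smul _),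
      fun x n => by simp [ha.periodic x n, hb.periodic x n]⟩, fun x => ?_⟩
  have hr : Smooth fun x => (r - s) • a x :=
    ⟨ha.smooth.const_smul _, fun x n => by simp [ha.periodic x n]⟩
  have hs : Smooth fun x => s • b x :=
    ⟨hb.smooth.const_smul _, fun x n => by simp [hb.periodic x n]⟩
  rw [d1_add hr hs, d1_smul_const ha, d1_smul_const hb]
  ext k
  simp [hab, hbc]
  ring

lemma closed_add {α β : V → Form} (hα : Smooth α) (hβ : Smooth β) (hcα : Closed α)
    (hcβ : Closed β) : Closed fun x => α x + β x := fun x u v w => by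
  simp only [fderiv_fun_add (hα.differentiableAt x) (hβ.differentiableAt x), add_apply, ev_add]
  linarith [hcα x u v w, hcβ x u v w]

lemma closed_const (c : Form) : Closed fun _ => c := fun x u v w => by simp [ev_def]

lemma Coh.smooth {α β : V → Form} (h : Coh α β) (hα : Smooth α) : Smooth β := by
  obtain ⟨a, ha, hab⟩ := h
  rw [funext hab]
  exact ⟨hα.smooth.add (smooth_d1 ha).smooth,
    fun x n => by simp [hα.periodic x n, (smooth_d1 ha).periodic x n]⟩

lemma Coh.closed {α β : V → Form} (h : Coh α β) (hα : Smooth α) (hc : Closed α) : Closed β := by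
  obtain ⟨a, ha, hab⟩ := h
  rw [funext hab]
  exact closed_add hα (smooth_d1 ha) hc (closed_d1 ha)

/-! ### Averaging along an axis -/

/-- The average along the axis `a`. -/
noncomputable def avg {F : Type*} [NormedAddCommGroup F] [NormedSpace ℝ F] (a : Fin 4)
    (f : V → F) (x : V) : F :=
  ∫ y in cube, f (x + y a • e a)

lemma restrict_cube_eq :
    volume.restrict cube = Measure.pi fun _ : Fin 4 => volume.restrict (Ico (0 : ℝ) 1) := by
  rw [cube, volume_pi, Measure.restrict_pi_pi]

/-- An integral over the cube of a function of one coordinate. -/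
lemma integral_cube_eval {F : Type*} [NormedAddCommGroup F] [NormedSpace ℝ F] (a : Fin 4)
    {g : ℝ → F} (hg : Continuous g) :
    ∫ y in cube, g (y a) = ∫ s in (0 : ℝ)..1, g s := by
  have : IsProbabilityMeasure (volume.restrict (Ico (0 : ℝ) 1)) := ⟨by simp⟩
  have h := measurePreserving_eval (fun _ : Fin 4 => volume.restrict (Ico (0 : ℝ) 1)) a
  have h' := integral_map (μ := Measure.pi fun _ : Fin 4 => volume.restrict (Ico (0 : ℝ) 1))
    h.measurable.aemeasurable (f := g) hg.aestronglyMeasurable
  rw [h.map_eq] at h'
  rw [restrict_cube_eq, ← h', intervalIntegral.integral_of_le zero_le_one,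
    integral_Ico_eq_integral_Ioc]

lemma avg_eq {F : Type*} [NormedAddCommGroup F] [NormedSpace ℝ F] (a : Fin 4) {f : V → F}
    (hf : Continuous f) (x : V) : avg a f x = ∫ s in (0 : ℝ)..1, f (x + s • e a) :=
  integral_cube_eval a (g := fun s => f (x + s • e a)) (by fun_prop)

lemma periodic_line {F : Type*} {f : V → F} (hp : Periodic f) (x : V) (a : Fin 4) :
    Function.Periodic (fun s : ℝ => f (x + s • e a)) 1 := fun s => by
  have : intVec (Pi.single a 1) = (1 : ℝ) • e a := by
    funext i; simp [intVec, e, Pi.single_apply]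
  show f (x + (s + 1) • e a) = _
  rw [add_smul, ← this, ← add_assoc, hp]

lemma inv_avg {F : Type*} [NormedAddCommGroup F] [NormedSpace ℝ F] (a : Fin 4) {f : V → F}
    (hf : Continuous f) (hp : Periodic f) : Inv a (avg a f) := fun x t => by
  rw [avg_eq a hf, avg_eq a hf]
  have h := (periodic_line hp x a).intervalIntegral_add_eq t 0
  rw [zero_add] at h
  rw [← h]
  have h' := intervalIntegral.integral_comp_add_left (fun s => f (x + s • e a)) t
    (a := (0 : ℝ)) (b := 1)
  rw [add_zero] at h'
  rw [← h']
  simp [add_smul, add_assoc]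

lemma inv_avg_of_inv {F : Type*} [NormedAddCommGroup F] [NormedSpace ℝ F] (a b : Fin 4)
    {f : V → F} (h : Inv b f) : Inv b (avg a f) := fun x t => by
  refine integral_congr_ae (Eventually.of_forall fun y => ?_)
  show f (x + t • e b + y a • e a) = f (x + y a • e a)
  rw [add_right_comm, h]

lemma avg_of_inv {F : Type*} [NormedAddCommGroup F] [NormedSpace ℝ F] [CompleteSpace F]
    (a : Fin 4) {f : V → F} (h : Inv a f) : avg a f = f := funext fun x => by
  simp [avg, h x]

/-- `d ι_v α` for a closed form. -/
lemma d1_iota {α : V → Form} (hα : Smooth α) (hc : Closed α) (v x : V) :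
    d1 (fun x => iota v (α x)) x = fderiv ℝ α x v := by
  have hd : DifferentiableAt ℝ (fun x => iota v (α x)) x :=
    differentiableAt_pi.2 fun j => by
      simp only [iota, ev_def]
      have := hα.differentiableAt x
      fun_prop
  have key : ∀ u j, fderiv ℝ (fun x => iota v (α x)) x u j = ev (fderiv ℝ α x u) v (e j) := by
    intro u j
    rw [← fderiv_coord hd]
    show fderiv ℝ (fun x => ev (α x) v (e j)) x u = _
    rw [fderiv_ev (hα.differentiableAt x) (differentiableAt_const _) (differentiableAt_const _)]
    simp [ev_def]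
  ext k
  rw [d1_apply, key, key]
  have h := hc x (e (fi k)) v (e (se k))
  rw [ev_skew (fderiv ℝ α x v) (e (se k)) (e (fi k)),
    ev_skew (fderiv ℝ α x (e (se k))) (e (fi k)) v] at h
  have hk : ev (fderiv ℝ α x v) (e (fi k)) (e (se k)) = fderiv ℝ α x v k := by
    fin_cases k <;> simp [ev_def, e, fi, se]
  linarith

lemma smooth_avg {F : Type*} [NormedAddCommGroup F] [NormedSpace ℝ F] [FiniteDimensional ℝ F]
    (a : Fin 4) {f : V → F} (hf : Smooth f) : Smooth (avg a f) := by
  refine ⟨?_, fun x n => ?_⟩
  · have h := contDiff_integral_param (volume.restrict cube)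
      (by rw [Measure.restrict_apply measurableSet_cube.compl]; simp)
      (b := fun x y : V => f (x + y a • e a))
      (hf.smooth.comp (contDiff_fst.add
        (((contDiff_apply ℝ ℝ a).comp contDiff_snd).smul contDiff_const)))
      (c := fun _ => (1 : ℝ)) (M := 1) measurable_const (by simp)
    show ContDiff ℝ (⊤ : ℕ∞) fun x => avg a f x
    simpa [avg] using h.1
  · refine integral_congr_ae (Eventually.of_forall fun y => ?_)
    show f (x + intVec n + y a • e a) = f (x + y a • e a)
    rw [add_right_comm, hf.periodic]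

/-- The primitive of `avg a α - α`. -/
noncomputable def prim (a : Fin 4) (α : V → Form) (x : V) : V :=
  ∫ y in cube, cube.indicator (fun y => 1 - y a) y • iota (e a) (α (x + y a • e a))

lemma coh_avg (a : Fin 4) {α : V → Form} (hα : Smooth α) (hc : Closed α) :
    Coh α (avg a α) := by
  have hν : volume.restrict cube cubeᶜ = 0 := by
    rw [Measure.restrict_apply measurableSet_cube.compl]; simp
  have hm : Measurable (cube.indicator fun y : V => 1 - y a) :=
    (by fun_prop : Measurable fun y : V => 1 - y a).indicator measurableSet_cube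
  have hM : ∀ y, |cube.indicator (fun y : V => 1 - y a) y| ≤ 1 := fun y => by
    by_cases hy : y ∈ cube
    · rw [indicator_of_mem hy, abs_le]
      constructor <;> linarith [(hy a (mem_univ a)).1, (hy a (mem_univ a)).2]
    · simp [indicator_of_notMem hy]
  have hi : ContDiff ℝ (⊤ : ℕ∞) fun x => iota (e a) (α x) :=
    contDiff_pi.2 fun j => contDiff_ev hα.smooth contDiff_const contDiff_const
  have hb : ContDiff ℝ (⊤ : ℕ∞) fun p : V × V => iota (e a) (α (p.1 + p.2 a • e a)) :=
    hi.comp (contDiff_fst.add (((contDiff_apply ℝ ℝ a).comp contDiff_snd).smul contDiff_const))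
  refine ⟨prim a α, ⟨(contDiff_integral_param _ hν hb hm hM).1, fun x n => ?_⟩, fun x => ?_⟩
  · refine integral_congr_ae (Eventually.of_forall fun y => ?_)
    simp only
    rw [add_right_comm, hα.periodic]
  · have h1 : d1 (prim a α) x =
        ∫ y in cube, (1 - y a) • fderiv ℝ α (x + y a • e a) (e a) := by
      refine ((d1_integral _ hν hb hm hM x).2).trans ?_
      refine setIntegral_congr_fun measurableSet_cube fun y hy => ?_
      simp only [indicator_of_mem hy]
      congr 1
      rw [← d1_iota hα hc]
      simp only [d1, fderiv_comp_add_right (f := fun x => iota (e a) (α x))]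
    have hD : Continuous fun z => fderiv ℝ α z (e a) :=
      (hα.smooth.continuous_fderiv (by simp)).clm_apply continuous_const
    have hα' := hα.smooth.continuous
    rw [h1, integral_cube_eval a (g := fun s => (1 - s) • fderiv ℝ α (x + s • e a) (e a))
      (by fun_prop), avg_eq a hα.smooth.continuous]
    have hder : ∀ s : ℝ, HasDerivAt (fun s => (1 - s) • α (x + s • e a))
        ((1 - s) • fderiv ℝ α (x + s • e a) (e a) - α (x + s • e a)) s := fun s => by
      have h2 : HasDerivAt (fun s : ℝ => x + s • e a) (e a) s := by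
        simpa using ((hasDerivAt_id s).smul_const (e a)).const_add x
      have h3 := (hα.differentiableAt (x + s • e a)).hasFDerivAt.comp_hasDerivAt s h2
      exact (((hasDerivAt_id s).const_sub 1).fun_smul h3).congr_deriv (by simp [sub_eq_add_neg])
    have hi1 : Continuous fun s : ℝ => (1 - s) • fderiv ℝ α (x + s • e a) (e a) := by fun_prop
    have hi2 : Continuous fun s : ℝ => α (x + s • e a) := by fun_prop
    have h := intervalIntegral.integral_eq_sub_of_hasDerivAt (fun s _ => hder s)
      ((hi1.sub hi2).intervalIntegrable (0 : ℝ) 1)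
    rw [intervalIntegral.integral_sub (hi1.intervalIntegrable _ _) (hi2.intervalIntegrable _ _)]
      at h
    simp only [sub_self, zero_smul, sub_zero, one_smul, add_zero, zero_sub] at h
    rw [sub_eq_iff_eq_add] at h
    rw [h]
    abel

/-! ### Means -/

lemma integrable_cube {F : Type*} [NormedAddCommGroup F] {f : V → F} (hf : Continuous f) :
    Integrable f (volume.restrict cube) := integrableOn_cube hf

lemma integral_fderiv_eq_zero {F : Type*} [NormedAddCommGroup F] [NormedSpace ℝ F]
    [FiniteDimensional ℝ F] {f : V → F} (hf : Smooth f) (u : V) :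
    ∫ y in cube, fderiv ℝ f y u = 0 := by
  have h := (contDiff_integral_param (volume.restrict cube)
    (by rw [Measure.restrict_apply measurableSet_cube.compl]; simp)
    (b := fun x y : V => f (x + y)) (hf.smooth.comp (contDiff_fst.add contDiff_snd))
    (c := fun _ => (1 : ℝ)) (M := 1) measurable_const (by simp)).2 0 u
  have hc : (fun x => ∫ y in cube, (1 : ℝ) • f (x + y)) = fun _ => ∫ y in cube, f y := by
    funext x
    simp only [one_smul, add_comm x]
    exact integral_cube_add hf.periodic x
  rw [hc, fderiv_fun_const] at h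
  simpa [fderiv_comp_add_right] using h.2.symm

lemma mean_d1 {η : V → V} (hη : Smooth η) : mean (d1 η) = 0 := by
  have h := (d1_integral (volume.restrict cube)
    (by rw [Measure.restrict_apply measurableSet_cube.compl]; simp)
    (b := fun x y : V => η (x + y)) (hη.smooth.comp (contDiff_fst.add contDiff_snd))
    (c := fun _ => (1 : ℝ)) (M := 1) measurable_const (by simp) 0).2
  have hc : (fun x => ∫ y in cube, (1 : ℝ) • η (x + y)) = fun _ => ∫ y in cube, η y := by
    funext x
    simp only [one_smul, add_comm x]
    exact integral_cube_add hη.periodic x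
  rw [hc, d1_const] at h
  simpa [mean, d1, fderiv_comp_add_right] using h.symm

lemma mean_const (c : Form) : mean (fun _ => c) = c := by simp [mean]

lemma Coh.mean_eq {α β : V → Form} (h : Coh α β) (hα : Smooth α) : mean β = mean α := by
  obtain ⟨η, hη, h⟩ := h
  rw [funext h, mean, integral_add (integrable_cube hα.smooth.continuous)
    (integrable_cube (smooth_d1 hη).smooth.continuous)]
  rw [show ∫ x in cube, d1 η x = 0 from mean_d1 hη, add_zero, mean]

/-- Every closed form is cohomologous to its mean. -/
lemma coh_mean {α : V → Form} (hα : Smooth α) (hc : Closed α) :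
    Coh α fun _ => mean α := by
  have step : ∀ a β, Coh α β → Coh α (avg a β) := fun a β h =>
    h.trans (coh_avg a (h.smooth hα) (h.closed hα hc))
  set β := avg 3 (avg 2 (avg 1 (avg 0 α))) with hβ
  have h0 := step 0 α (Coh.refl α)
  have h1 := step 1 _ h0
  have h2 := step 2 _ h1
  have h3 := step 3 _ h2
  have i0 := inv_avg 0 hα.smooth.continuous hα.periodic
  have i1 := inv_avg 1 (h0.smooth hα).smooth.continuous (h0.smooth hα).periodic
  have i2 := inv_avg 2 (h1.smooth hα).smooth.continuous (h1.smooth hα).periodic
  have i3 := inv_avg 3 (h2.smooth hα).smooth.continuous (h2.smooth hα).periodic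
  have hconst : ∀ x, β x = β 0 := fun x => by
    have hx : x = 0 + x 0 • e 0 + x 1 • e 1 + x 2 • e 2 + x 3 • e 3 := by
      conv_lhs => rw [sum_e x]
      simp [Fin.sum_univ_four, add_assoc]
    rw [hx, hβ, i3 _ _, inv_avg_of_inv 3 2 i2 _ _,
      inv_avg_of_inv 3 1 (inv_avg_of_inv 2 1 i1) _ _,
      inv_avg_of_inv 3 0 (inv_avg_of_inv 2 0 (inv_avg_of_inv 1 0 i0)) _ _]
  have hm := h3.mean_eq hα
  have hb : β = fun _ => β 0 := funext hconst
  rw [← hβ, hb] at h3 hm
  rw [mean_const] at hm
  rwa [hm] at h3

lemma coh_of_mean_eq {α β : V → Form} (hα : Smooth α) (hc : Closed α) (hβ : Smooth β)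
    (hc' : Closed β) (h : mean α = mean β) : Coh α β := by
  have h' := coh_mean hβ hc'
  rw [← h] at h'
  exact (coh_mean hα hc).trans h'.symm

end Vale.Agent.P247.Torus
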