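import Vale.Agent.P204.Torus.Defs

/-!
P247, hypersymplectic triples on the four-torus: definitions.

The conventions are those of `Vale.Agent.P204.Torus.Defs`: the torus is `ℝ⁴ / ℤ⁴` with the standard
orientation, a two-form at a point has coordinates `(01, 02, 03, 23, 31, 12)`, and `q α β` is
`α ∧ β` over the standard volume form.
-/

open MeasureTheory Set
open scoped BigOperators

namespace Vale.Agent.P247.Torus

open Vale.Agent.P204.Torus

/-- The linear combination `∑ dᵢ ωᵢ`. -/
noncomputable def comb (d : Fin 3 → ℝ) (ω : Fin 3 → V → Form) (x : V) : Form :=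
  ∑ i, d i • ω i x

/-- A hypersymplectic triple: three smooth closed periodic two-forms whose wedge matrix is
positive definite at every point. -/
structure Hypersymplectic (ω : Fin 3 → V → Form) : Prop where
  smooth : ∀ i, Smooth (ω i)
  closed : ∀ i, Closed (ω i)
  pos : ∀ x, ∀ d : Fin 3 → ℝ, d ≠ 0 → 0 < q (comb d ω x) (comb d ω x)

/-- The Gram matrix `∫ ωᵢ ∧ ωⱼ` is the identity. -/
def Normalized (ω : Fin 3 → V → Form) : Prop :=
  ∀ i j, ∫ x in cube, q (ω i x) (ω j x) = if i = j then 1 else 0

/-- A hyperkaehler triple: `τᵢ ∧ τⱼ = δᵢⱼ f vol` with a positive function `f`. -/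
def HyperkahlerTriple (τ : Fin 3 → V → Form) : Prop :=
  Hypersymplectic τ ∧ ∃ f : V → ℝ, (∀ x, 0 < f x) ∧
    ∀ x i j, q (τ i x) (τ j x) = if i = j then f x else 0

/-- A cohomologous deformation of `ω`: a family, smooth in `(t, x)`, of hypersymplectic triples
starting at `ω` and differing from `ω` by exterior derivatives of smooth periodic one-forms. -/
structure CohomologousDeformation (ω : Fin 3 → V → Form) (W : ℝ → Fin 3 → V → Form) :
    Prop where
  smooth : ∀ i, ContDiff ℝ (⊤ : ℕ∞) fun p : ℝ × V => W p.1 i p.2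
  hs : ∀ t ∈ Icc (0 : ℝ) 1, Hypersymplectic (W t)
  start : W 0 = ω
  cohom : ∀ t ∈ Icc (0 : ℝ) 1, ∀ i, ∃ η : V → V, Smooth η ∧ ∀ x, W t i x = ω i x + d1 η x

/-- Invariance under the translations along the axis `a`. -/
def Inv {F : Type*} (a : Fin 4) (f : V → F) : Prop := ∀ x (s : ℝ), f (x + s • e a) = f x

/-- The mean value over the torus. -/
noncomputable def mean (α : V → Form) : Form := ∫ x in cube, α x

end Vale.Agent.P247.Torus
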