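import Vale.Agent.P247.Torus.Wedge

/-!
P247: three situations in which the straight segment from a hypersymplectic triple to an average
stays hypersymplectic.
-/

open MeasureTheory Set Filter Topology
open scoped BigOperators

namespace Vale.Agent.P247.Torus

open Vale.Agent.P204.Torus

/-- The straight segment from `ω` to `σ` consists of pointwise positive triples. -/
def SegPos (ω σ : Fin 3 → V → Form) : Prop :=
  ∀ r ∈ Icc (0 : ℝ) 1, ∀ x, ∀ d : Fin 3 → ℝ, d ≠ 0 →
    0 < q ((1 - r) • comb d ω x + r • comb d σ x) ((1 - r) • comb d ω x + r • comb d σ x)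

lemma q_comb (d : Fin 3 → ℝ) (ω σ : Fin 3 → V → Form) (x : V) :
    q (comb d ω x) (comb d σ x) = ∑ i, ∑ j, d i * d j * q (ω i x) (σ j x) := by
  simp only [comb, Fin.sum_univ_three, q_add_left, q_add_right, q_smul_left, q_smul_right]
  ring

lemma q_interp (r : ℝ) (u v : Form) :
    q ((1 - r) • u + r • v) ((1 - r) • u + r • v) =
      (1 - r) ^ 2 * q u u + 2 * r * (1 - r) * q u v + r ^ 2 * q v v := by
  simp only [q_add_left, q_add_right, q_smul_left, q_smul_right, q_comm v u]
  ring

lemma comb_lin (a b : Fin 3 → ℝ) (μ ν : ℝ) (ω : Fin 3 → V → Form) (x : V) :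
    comb (μ • a + ν • b) ω x = μ • comb a ω x + ν • comb b ω x := by
  simp only [comb, Pi.add_apply, Pi.smul_apply, smul_eq_mul, Finset.smul_sum, smul_smul,
    add_smul, Finset.sum_add_distrib]

lemma smooth_comb (d : Fin 3 → ℝ) {ω : Fin 3 → V → Form} (h : ∀ i, Smooth (ω i)) :
    Smooth (comb d ω) :=
  ⟨ContDiff.sum fun i _ => (h i).smooth.const_smul _,
    fun x n => by simp only [comb, fun i => (h i).periodic x n]⟩

lemma avg_comb (a : Fin 4) (d : Fin 3 → ℝ) {ω : Fin 3 → V → Form} (h : ∀ i, Smooth (ω i))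
    (x : V) : comb d (fun i => avg a (ω i)) x = avg a (comb d ω) x := by
  have hc : ∀ i, Continuous fun y : V => ω i (x + y a • e a) := fun i => by
    have := (h i).smooth.continuous
    fun_prop
  simp only [comb, avg]
  rw [integral_finsetSum _ fun i _ => integrable_cube (f := fun y : V => d i • ω i (x + y a • e a))
    ((hc i).const_smul (d i))]
  simp only [integral_smul]

lemma integral_cube_pos {f : V → ℝ} (hf : Continuous f) (h : ∀ x, 0 < f x) :
    0 < ∫ x in cube, f x := by
  rw [integral_pos_iff_support_of_nonneg (fun x => (h x).le) (integrable_cube hf)]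
  rw [show Function.support f = univ from eq_univ_of_forall fun x => (h x).ne']
  simp

/-- The linear function `q · w` commutes with averaging. -/
lemma q_avg (a : Fin 4) {f : V → Form} (hf : Continuous f) (w : Form) (x : V) :
    q (avg a f x) w = ∫ y in cube, q (f (x + y a • e a)) w :=
  ((qL w).integral_comp_comm (integrable_cube (by fun_prop))).symm

lemma coord_avg (a : Fin 4) {f : V → Form} (hf : Continuous f) (k : Fin 6) (x : V) :
    avg a f x k = ∫ y in cube, f (x + y a • e a) k :=
  ((EuclideanSpace.proj (𝕜 := ℝ) k).integral_comp_comm (integrable_cube (by fun_prop))).symm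

/-! ### Positivity against the mean -/

/-- If every combination pairs with its mean more than `-√(q q)`, the segment to the mean is
positive. -/
lemma segPos_mean {ω : Fin 3 → V → Form} (hω : Hypersymplectic ω) (hn : Normalized ω)
    (h : ∀ x, ∀ d : Fin 3 → ℝ, d ≠ 0 →
      0 < q (comb d ω x) (comb d (fun i _ => mean (ω i)) x) +
        Real.sqrt (q (comb d ω x) (comb d ω x) * ∑ i, d i ^ 2)) :
    SegPos ω fun i _ => mean (ω i) := by
  intro r hr x d hd
  have hm : q (comb d (fun i _ => mean (ω i)) x) (comb d (fun i _ => mean (ω i)) x) =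
      ∑ i, d i ^ 2 := by
    have hq : ∀ i j, q (mean (ω i)) (mean (ω j)) = if i = j then 1 else 0 := fun i j => by
      rw [← int_q (hω.smooth i) (hω.closed i) (hω.smooth j) (hω.closed j)]
      exact hn i j
    rw [q_comb]
    simp only [hq]
    simp [sq]
  set u := comb d ω x
  set v := comb d (fun i _ => mean (ω i)) x
  set S := ∑ i, d i ^ 2
  have hu : 0 < q u u := hω.pos x d hd
  have hS : 0 < S := by
    obtain ⟨i, hi⟩ := Function.ne_iff.1 hd
    exact Finset.sum_pos' (fun j _ => sq_nonneg _) ⟨i, Finset.mem_univ i, lt_of_le_of_ne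
      (sq_nonneg _) (Ne.symm (pow_ne_zero 2 hi))⟩
  have h' : 0 < q u v + Real.sqrt (q u u * S) := h x d hd
  rw [Real.sqrt_mul hu.le] at h'
  rw [q_interp, hm]
  have hA := Real.sqrt_pos.2 hu
  have hB := Real.sqrt_pos.2 hS
  rcases eq_or_lt_of_le hr.1 with h0 | h0
  · rw [← h0]; linarith
  rcases eq_or_lt_of_le hr.2 with h1 | h1
  · rw [h1]; linarith
  nlinarith [mul_pos (mul_pos h0 (sub_pos.2 h1)) h', Real.mul_self_sqrt hu.le,
    Real.mul_self_sqrt hS.le, sq_nonneg ((1 - r) * Real.sqrt (q u u) - r * Real.sqrt S)]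

/-! ### Restrictions to the slices independent of the axis coordinate -/

/-- If the coordinates `23, 31, 12` do not depend on `x₀`, the segment to the average is
positive. -/
lemma segPos_slice {ω : Fin 3 → V → Form} (hω : Hypersymplectic ω)
    (h : ∀ i, ∀ k : Fin 6, 3 ≤ k → Inv 0 fun x => ω i x k) :
    SegPos ω fun i => avg 0 (ω i) := by
  intro r hr x d hd
  rw [avg_comb 0 d hω.smooth]
  set u := comb d ω with hu
  have hc : Continuous u := (smooth_comb d hω.smooth).smooth.continuous
  have hk : ∀ k : Fin 6, 3 ≤ k → ∀ z (s : ℝ), u (z + s • e 0) k = u z k := fun k hk z s => by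
    simp only [hu, comb, Fin.sum_univ_three, PiLp.add_apply, PiLp.smul_apply]
    rw [show ω 0 (z + s • e 0) k = ω 0 z k from h 0 k hk z s,
      show ω 1 (z + s • e 0) k = ω 1 z k from h 1 k hk z s,
      show ω 2 (z + s • e 0) k = ω 2 z k from h 2 k hk z s]
  have ha : ∀ k : Fin 6, 3 ≤ k → avg 0 u x k = u x k := fun k hk' => by
    rw [coord_avg 0 hc]
    simp [hk k hk']
  set F : Form := WithLp.toLp 2 ![0, 0, 0, u x 3, u x 4, u x 5] with hF
  have hq : ∀ z : Form, z 3 = u x 3 → z 4 = u x 4 → z 5 = u x 5 → q z z = 2 * q z F :=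
    fun z h3 h4 h5 => by
      simp [q, hF, h3, h4, h5, Matrix.cons_val]
      ring
  have h1 : 0 < q (u x) (u x) := hω.pos x d hd
  have h2 : 0 < q (avg 0 u x) F := by
    rw [q_avg 0 hc]
    refine integral_cube_pos ?_ fun y => ?_
    · simp only [q]; fun_prop
    · have := hq (u (x + y 0 • e 0)) (hk 3 le_rfl x _) (hk 4 (by decide) x _)
        (hk 5 (by decide) x _)
      have h' : 0 < q (u (x + y 0 • e 0)) (u (x + y 0 • e 0)) := hω.pos _ d hd
      linarith
  have a3 := ha 3 le_rfl
  have a4 := ha 4 (by decide)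
  have a5 := ha 5 (by decide)
  rw [hq _ (by simp [a3]; ring) (by simp [a4]; ring) (by simp [a5]; ring),
    q_add_left, q_smul_left, q_smul_left]
  rw [hq (u x) rfl rfl rfl] at h1
  rcases eq_or_lt_of_le hr.1 with h0 | h0
  · rw [← h0]; linarith
  · nlinarith [mul_pos h0 h2, mul_nonneg (sub_nonneg.2 hr.2) h1.le]

/-! ### Two invariant combinations -/

/-- The wedge matrix determinant of a pair. -/
noncomputable def gramDet (P R : Form) : ℝ := q P P * q R R - q P R ^ 2

/-- The pairing of the components orthogonal to `P` and `R`, times their determinant. -/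
noncomputable def N2 (P R u v : Form) : ℝ :=
  gramDet P R * q u v -
    (q R R * q u P * q v P - q P R * (q u P * q v R + q u R * q v P) + q P P * q u R * q v R)

lemma N2_identity (P R u v : Form) (l m μ ν : ℝ) :
    q P P * gramDet P R * q (l • u + m • v + μ • P + ν • R) (l • u + m • v + μ • P + ν • R) =
      gramDet P R * (q P P * μ + q P R * ν + l * q u P + m * q v P) ^ 2 +
      (gramDet P R * ν + l * (q P P * q u R - q P R * q u P)
        + m * (q P P * q v R - q P R * q v P)) ^ 2 +
      q P P * (l ^ 2 * N2 P R u u + 2 * l * m * N2 P R u v + m ^ 2 * N2 P R v v) := by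
  simp only [N2, gramDet, q_add_left, q_add_right, q_smul_left, q_smul_right, q_comm v u,
    q_comm P u, q_comm R u, q_comm P v, q_comm R v, q_comm R P]
  ring

/-- Two vectors positive orthogonally to a positive pair pair nontrivially, the index being
`(3,3)`. -/
lemma N2_ne_zero {P R u v : Form} (hP : 0 < q P P) (hD : 0 < gramDet P R)
    (hu : 0 < N2 P R u u) (hv : 0 < N2 P R v v) : N2 P R u v ≠ 0 := by
  intro huv
  set g : Fin 4 → Form := ![u, v, P, R] with hg
  set T : (Fin 4 → ℝ) →ₗ[ℝ] (Fin 3 → ℝ) :=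
    { toFun := fun c => ![∑ i, c i * (g i 0 + g i 3), ∑ i, c i * (g i 1 + g i 4),
        ∑ i, c i * (g i 2 + g i 5)]
      map_add' := fun a b => by
        ext j; fin_cases j <;> simp [add_mul, Finset.sum_add_distrib]
      map_smul' := fun r a => by
        ext j; fin_cases j <;> simp [Finset.mul_sum, mul_assoc] } with hT
  have hker : LinearMap.ker T ≠ ⊥ :=
    LinearMap.ker_ne_bot_of_finrank_lt (by simp)
  obtain ⟨c, hc, hc0⟩ := Submodule.exists_mem_ne_zero_of_ne_bot hker
  rw [LinearMap.mem_ker] at hc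
  set z := c 0 • u + c 1 • v + c 2 • P + c 3 • R with hz
  have hs : z 3 = -z 0 ∧ z 4 = -z 1 ∧ z 5 = -z 2 := by
    have e0 := congrFun hc 0
    have e1 := congrFun hc 1
    have e2 := congrFun hc 2
    simp [hT, hg, Fin.sum_univ_four] at e0 e1 e2
    refine ⟨?_, ?_, ?_⟩ <;> simp [hz] <;> linarith
  have hneg : q z z ≤ 0 := by
    simp only [q, hs.1, hs.2.1, hs.2.2]
    nlinarith [sq_nonneg (z 0), sq_nonneg (z 1), sq_nonneg (z 2)]
  have hid := N2_identity P R u v (c 0) (c 1) (c 2) (c 3)
  rw [huv, ← hz] at hid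
  have hle : q P P * gramDet P R * q z z ≤ 0 :=
    mul_nonpos_of_nonneg_of_nonpos (mul_pos hP hD).le hneg
  have t1 := mul_nonneg hD.le (sq_nonneg (q P P * c 2 + q P R * c 3 + c 0 * q u P + c 1 * q v P))
  have t2 := sq_nonneg (gramDet P R * c 3 + c 0 * (q P P * q u R - q P R * q u P)
    + c 1 * (q P P * q v R - q P R * q v P))
  have t3 : 0 ≤ q P P * (c 0 ^ 2 * N2 P R u u) := by positivity
  have t4 : 0 ≤ q P P * (c 1 ^ 2 * N2 P R v v) := by positivity
  have s3 : q P P * (c 0 ^ 2 * N2 P R u u) = 0 := by linarith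
  have s4 : q P P * (c 1 ^ 2 * N2 P R v v) = 0 := by linarith
  have c00 : c 0 = 0 := by simpa [hP.ne', hu.ne'] using s3
  have c10 : c 1 = 0 := by simpa [hP.ne', hv.ne'] using s4
  have s1 : gramDet P R * (q P P * c 2 + q P R * c 3 + c 0 * q u P + c 1 * q v P) ^ 2 = 0 := by
    linarith
  have s2 : (gramDet P R * c 3 + c 0 * (q P P * q u R - q P R * q u P)
    + c 1 * (q P P * q v R - q P R * q v P)) ^ 2 = 0 := by linarith
  have c30 : c 3 = 0 := by simpa [c00, c10, hD.ne'] using s2
  have c20 : c 2 = 0 := by simpa [c00, c10, c30, hD.ne', hP.ne'] using s1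
  exact hc0 (funext fun i => by fin_cases i <;> assumption)

/-- If two independent combinations are invariant along `x₀`, the segment to the average is
positive. -/
lemma segPos_two {ω : Fin 3 → V → Form} (hω : Hypersymplectic ω) {a b : Fin 3 → ℝ}
    (hab : LinearIndependent ℝ ![a, b]) (ha : Inv 0 (comb a ω)) (hb : Inv 0 (comb b ω)) :
    SegPos ω fun i => avg 0 (ω i) := by
  intro r hr x d hd
  rw [avg_comb 0 d hω.smooth]
  rw [LinearIndependent.pair_iff] at hab
  by_cases hspan : ∃ μ ν : ℝ, d = μ • a + ν • b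
  · obtain ⟨μ, ν, rfl⟩ := hspan
    have hi : Inv 0 (comb (μ • a + ν • b) ω) := fun z s => by
      rw [comb_lin, comb_lin, ha z s, hb z s]
    rw [avg_of_inv 0 hi, ← add_smul, sub_add_cancel, one_smul]
    exact hω.pos x _ hd
  set u := comb d ω with hu
  set P := comb a ω x with hP'
  set R := comb b ω x with hR'
  have hc : Continuous u := (smooth_comb d hω.smooth).smooth.continuous
  have ha0 : a ≠ 0 := fun h0 => one_ne_zero (hab 1 0 (by simp [h0])).1
  have hP : 0 < q P P := hω.pos x a ha0
  have hD : 0 < gramDet P R := by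
    have h := hω.pos x (q P R • a + (-q P P) • b)
      fun h0 => (neg_ne_zero.2 hP.ne') (hab _ _ h0).2
    rw [comb_lin, ← hP', ← hR'] at h
    simp only [q_add_left, q_add_right, q_smul_left, q_smul_right, q_comm R P] at h
    simp only [gramDet]
    by_contra hle
    nlinarith [mul_nonpos_of_nonneg_of_nonpos hP.le (not_lt.1 hle)]
  have hN : ∀ s : ℝ, 0 < N2 P R (u (x + s • e 0)) (u (x + s • e 0)) := fun s => by
    set z := u (x + s • e 0) with hz
    set μ := -(q R R * q z P - q P R * q z R) / gramDet P R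
    set ν := -(q P P * q z R - q P R * q z P) / gramDet P R
    have hne : (1 : ℝ) • d + (μ • a + ν • b) ≠ 0 := fun h0 => hspan
      ⟨-μ, -ν, by
        rw [one_smul] at h0
        rw [eq_neg_of_add_eq_zero_left h0, neg_smul, neg_smul, neg_add]⟩
    have h := hω.pos (x + s • e 0) _ hne
    rw [show comb ((1 : ℝ) • d + (μ • a + ν • b)) ω (x + s • e 0) = z + μ • P + ν • R by
      rw [← one_smul ℝ (μ • a + ν • b), comb_lin, one_smul, one_smul, comb_lin, ha, hb,
        ← hu, add_assoc]] at h
    have hid : q (z + μ • P + ν • R) (z + μ • P + ν • R) = N2 P R z z / gramDet P R := by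
      simp only [μ, ν, N2, q_add_left, q_add_right, q_smul_left, q_smul_right, q_comm P z,
        q_comm R z, q_comm R P]
      field_simp
      simp only [gramDet]
      ring
    rw [hid] at h
    exact (div_pos_iff_of_pos_right hD).1 h
  set L : Form → (Form →L[ℝ] ℝ) := fun w =>
    gramDet P R • qL w - ((q R R * q w P) • qL P - q P R • (q w R • qL P + q w P • qL R)
      + (q P P * q w R) • qL R) with hL
  have hLN : ∀ z w, L w z = N2 P R z w := fun z w => by
    simp only [hL, N2, sub_apply, add_apply, smul_apply, qL_apply, smul_eq_mul]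
    ring
  have hsym : ∀ z w, N2 P R z w = N2 P R w z := fun z w => by
    simp only [N2, q_comm z w]; ring
  have hcs : ∀ w, Continuous fun t : ℝ => N2 P R (u (x + t • e 0)) w := fun w => by
    simp only [← hLN]; fun_prop
  have hpair : ∀ s t : ℝ, 0 < N2 P R (u (x + t • e 0)) (u (x + s • e 0)) := fun s t => by
    by_contra hle
    obtain ⟨t', ht'⟩ := intermediate_value_univ t s (hcs (u (x + s • e 0)))
      ⟨not_lt.1 hle, (hN s).le⟩
    exact N2_ne_zero hP hD (hN t') (hN s) ht'
  have hone : ∀ s : ℝ, 0 < N2 P R (avg 0 u x) (u (x + s • e 0)) := fun s => by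
    rw [← hLN, avg, ← (L _).integral_comp_comm (integrable_cube (by fun_prop))]
    exact integral_cube_pos (by fun_prop) fun y => by rw [hLN]; exact hpair s _
  have h0 : 0 < N2 P R (u x) (u x) := by simpa using hN 0
  have h1 : 0 < N2 P R (avg 0 u x) (u x) := by simpa using hone 0
  have h2 : 0 < N2 P R (avg 0 u x) (avg 0 u x) := by
    conv_rhs => rw [← hLN, avg, ← (L _).integral_comp_comm (integrable_cube (by fun_prop))]
    exact integral_cube_pos (by fun_prop) fun y => by rw [hLN, hsym]; exact hone _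
  set z := (1 - r) • u x + r • avg 0 u x with hz
  have hzN : 0 < N2 P R z z := by
    have hexp : N2 P R z z = (1 - r) ^ 2 * N2 P R (u x) (u x) +
        2 * r * (1 - r) * N2 P R (avg 0 u x) (u x) + r ^ 2 * N2 P R (avg 0 u x) (avg 0 u x) := by
      simp only [hz, N2, q_add_left, q_add_right, q_smul_left, q_smul_right,
        q_comm (avg 0 u x) (u x)]
      ring
    rw [hexp]
    rcases eq_or_lt_of_le hr.1 with hr0 | hr0
    · rw [← hr0]; linarith
    · have h5 : 0 ≤ 2 * r * (1 - r) := mul_nonneg (by linarith) (sub_nonneg.2 hr.2)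
      nlinarith [mul_nonneg h5 h1.le, mul_pos (pow_pos hr0 2) h2,
        mul_nonneg (sq_nonneg (1 - r)) h0.le]
  have hkey : q P P * (gramDet P R * q z z - N2 P R z z) =
      (q P P * q z R - q P R * q z P) ^ 2 + gramDet P R * q z P ^ 2 := by
    simp only [N2, gramDet]; ring
  have hge : 0 ≤ q P P * (gramDet P R * q z z - N2 P R z z) := by rw [hkey]; positivity
  have := (mul_nonneg_iff_of_pos_left hP).1 hge
  exact (mul_pos_iff_of_pos_left hD).1 (by linarith)

end Vale.Agent.P247.Torus
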