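import Vale.Agent.P247.Torus.Basic

/-!
P247: `∫ α ∧ β` depends only on the mean values; coordinate criterion for closedness.
-/

open MeasureTheory Set Filter Topology
open scoped BigOperators

namespace Vale.Agent.P247.Torus

open Vale.Agent.P204.Torus

/-- The right wedge pairing as a continuous linear map. -/
noncomputable def qL (β : Form) : Form →L[ℝ] ℝ :=
  LinearMap.toContinuousLinearMap
    { toFun := fun α => q α β
      map_add' := fun a b => q_add_left a b β
      map_smul' := fun r a => by simp [q_smul_left] }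

lemma qL_apply (α β : Form) : qL β α = q α β := rfl

lemma contDiff_q {α β : V → Form} (hα : ContDiff ℝ (⊤ : ℕ∞) α) (hβ : ContDiff ℝ (⊤ : ℕ∞) β) :
    ContDiff ℝ (⊤ : ℕ∞) fun x => q (α x) (β x) := by
  have hc : ∀ k, ContDiff ℝ (⊤ : ℕ∞) fun x => α x k := contDiff_form.1 hα
  have hd : ∀ k, ContDiff ℝ (⊤ : ℕ∞) fun x => β x k := contDiff_form.1 hβ
  simp only [q]
  exact ((((((hc 0).mul (hd 3)).add ((hc 1).mul (hd 4))).add ((hc 2).mul (hd 5))).add
    ((hc 3).mul (hd 0))).add ((hc 4).mul (hd 1))).add ((hc 5).mul (hd 2))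

lemma fderiv_coordF {α : V → Form} {x : V} (h : DifferentiableAt ℝ α x) (u : V) (k : Fin 6) :
    fderiv ℝ (fun x => α x k) x u = fderiv ℝ α x u k := by
  have h' : HasFDerivAt (fun x => α x k)
      ((EuclideanSpace.proj (𝕜 := ℝ) k).comp (fderiv ℝ α x)) x :=
    (EuclideanSpace.proj (𝕜 := ℝ) k).hasFDerivAt.comp x h.hasFDerivAt
  rw [h'.fderiv]
  rfl

lemma fderiv_q {α β : V → Form} {x : V} (hα : DifferentiableAt ℝ α x)
    (hβ : DifferentiableAt ℝ β x) (u : V) :
    fderiv ℝ (fun x => q (α x) (β x)) x u =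
      q (fderiv ℝ α x u) (β x) + q (α x) (fderiv ℝ β x u) := by
  have ha : ∀ k, HasFDerivAt (fun x => α x k)
      ((EuclideanSpace.proj (𝕜 := ℝ) k).comp (fderiv ℝ α x)) x := fun k =>
    (EuclideanSpace.proj (𝕜 := ℝ) k).hasFDerivAt.comp x hα.hasFDerivAt
  have hb : ∀ k, HasFDerivAt (fun x => β x k)
      ((EuclideanSpace.proj (𝕜 := ℝ) k).comp (fderiv ℝ β x)) x := fun k =>
    (EuclideanSpace.proj (𝕜 := ℝ) k).hasFDerivAt.comp x hβ.hasFDerivAt
  have h := (((((ha 0).fun_mul (hb 3)).fun_add ((ha 1).fun_mul (hb 4))).fun_add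
    ((ha 2).fun_mul (hb 5))).fun_add ((ha 3).fun_mul (hb 0))).fun_add ((ha 4).fun_mul (hb 1))
    |>.fun_add ((ha 5).fun_mul (hb 2))
  simp only [q]
  rw [h.fderiv]
  simp only [add_apply, smul_apply, ContinuousLinearMap.comp_apply, PiLp.proj_apply, smul_eq_mul]
  ring

/-- The wedge of a constant covector with a field of covectors. -/
noncomputable def wedgeL (i : Fin 4) : V →L[ℝ] Form :=
  LinearMap.toContinuousLinearMap
    { toFun := fun η => wedge (e i) η
      map_add' := fun a b => by ext k; simp [wedge_apply]; ring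
      map_smul' := fun r a => by ext k; simp [wedge_apply]; ring }

lemma wedgeL_apply (i : Fin 4) (η : V) : wedgeL i η = wedge (e i) η := rfl

/-- `dη ∧ β = d (η ∧ β)` for closed `β`. -/
lemma q_d1_eq_sum {η : V → V} {β : V → Form} (hη : Smooth η) (hβ : Smooth β) (hc : Closed β)
    (x : V) :
    q (d1 η x) (β x) = ∑ i, fderiv ℝ (fun x => q (wedgeL i (η x)) (β x)) x (e i) := by
  have hw : ∀ i u, fderiv ℝ (fun x => wedgeL i (η x)) x u = wedgeL i (fderiv ℝ η x u) := fun i u =>
    by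
      have h : HasFDerivAt (fun x => wedgeL i (η x)) ((wedgeL i).comp (fderiv ℝ η x)) x :=
        (wedgeL i).hasFDerivAt.comp x (hη.differentiableAt x).hasFDerivAt
      rw [h.fderiv]
      rfl
  simp only [fun i => fderiv_q (α := fun x => wedgeL i (η x))
    ((wedgeL i).differentiableAt.comp x (hη.differentiableAt x)) (hβ.differentiableAt x), hw]
  have c0 := hc x (e 1) (e 2) (e 3)
  have c1 := hc x (e 0) (e 2) (e 3)
  have c2 := hc x (e 0) (e 1) (e 3)
  have c3 := hc x (e 0) (e 1) (e 2)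
  simp only [wedgeL_apply, q, d1_apply, wedge_apply, Fin.sum_univ_four, fi, se,
    Matrix.cons_val_zero, Matrix.cons_val_one, Matrix.cons_val, ev_def] at *
  simp [e] at *
  linear_combination η x 0 * c0 - η x 1 * c1 + η x 2 * c2 - η x 3 * c3

lemma integral_q_d1 {η : V → V} {β : V → Form} (hη : Smooth η) (hβ : Smooth β) (hc : Closed β) :
    ∫ x in cube, q (d1 η x) (β x) = 0 := by
  have hs : ∀ i, Smooth fun x => q (wedgeL i (η x)) (β x) := fun i =>
    ⟨contDiff_q ((wedgeL i).contDiff.comp hη.smooth) hβ.smooth,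
      fun x n => by simp [hη.periodic x n, hβ.periodic x n]⟩
  simp only [q_d1_eq_sum hη hβ hc]
  rw [integral_finsetSum _ fun i _ => integrable_cube
    (((hs i).smooth.continuous_fderiv (by simp)).clm_apply continuous_const)]
  exact Finset.sum_eq_zero fun i _ => integral_fderiv_eq_zero (hs i) (e i)

/-- For closed forms, `∫ α ∧ β` is the wedge of the mean values. -/
lemma int_q {α β : V → Form} (hα : Smooth α) (hcα : Closed α) (hβ : Smooth β) (hcβ : Closed β) :
    ∫ x in cube, q (α x) (β x) = q (mean α) (mean β) := by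
  obtain ⟨η, hη, h⟩ := (coh_mean hα hcα).symm
  have hd : Continuous fun x => q (d1 η x) (β x) :=
    (contDiff_q (smooth_d1 hη).smooth hβ.smooth).continuous
  have hm : Continuous fun x => q (mean α) (β x) :=
    (contDiff_q contDiff_const hβ.smooth).continuous
  rw [funext fun x => show q (α x) (β x) = q (mean α) (β x) + q (d1 η x) (β x) by
    rw [h, q_add_left], integral_add (integrable_cube hm) (integrable_cube hd),
    integral_q_d1 hη hβ hcβ, add_zero]
  simp only [q_comm (mean α), ← qL_apply _ (mean α)]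
  exact (qL (mean α)).integral_comp_comm (integrable_cube hβ.smooth.continuous)

/-- Closedness from the four coordinate equations. -/
lemma closed_of_coord {α : V → Form}
    (h0 : ∀ x, fderiv ℝ α x (e 1) 3 + fderiv ℝ α x (e 2) 4 + fderiv ℝ α x (e 3) 5 = 0)
    (h1 : ∀ x, fderiv ℝ α x (e 0) 3 - fderiv ℝ α x (e 2) 2 + fderiv ℝ α x (e 3) 1 = 0)
    (h2 : ∀ x, fderiv ℝ α x (e 0) 4 - fderiv ℝ α x (e 3) 0 + fderiv ℝ α x (e 1) 2 = 0)
    (h3 : ∀ x, fderiv ℝ α x (e 0) 5 - fderiv ℝ α x (e 1) 1 + fderiv ℝ α x (e 2) 0 = 0) :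
    Closed α := by
  intro x u v w
  have hl : ∀ u k, fderiv ℝ α x u k = ∑ i, u i * fderiv ℝ α x (e i) k := fun u k => by
    conv_lhs => rw [sum_e u, map_sum]
    simp [Fin.sum_univ_four, map_smul]
  simp only [ev_def]
  simp only [hl u, hl v, hl w, Fin.sum_univ_four]
  linear_combination
    (u 1 * (v 2 * w 3 - w 2 * v 3) - u 2 * (v 1 * w 3 - w 1 * v 3)
      + u 3 * (v 1 * w 2 - w 1 * v 2)) * h0 x
    + (u 0 * (v 2 * w 3 - w 2 * v 3) - u 2 * (v 0 * w 3 - w 0 * v 3)
      + u 3 * (v 0 * w 2 - w 0 * v 2)) * h1 x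
    + (u 0 * (v 3 * w 1 - w 3 * v 1) - u 3 * (v 0 * w 1 - w 0 * v 1)
      + u 1 * (v 0 * w 3 - w 0 * v 3)) * h2 x
    + (u 0 * (v 1 * w 2 - w 1 * v 2) - u 1 * (v 0 * w 2 - w 0 * v 2)
      + u 2 * (v 0 * w 1 - w 0 * v 1)) * h3 x

end Vale.Agent.P247.Torus
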