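import Vale.Agent.P247.Torus.Segments

/-!
P247: a triple invariant along `x₀` is joined by a straight segment to an explicit hyperkaehler
triple of Gibbons-Hawking type, `τᵢ = θ ∧ αᵢ + c αⱼ ∧ αₖ`.
-/

open MeasureTheory Set Filter Topology
open scoped BigOperators

namespace Vale.Agent.P247.Torus

open Vale.Agent.P204.Torus

/-- The form `dx₀ ∧ a + ⋆b`. -/
noncomputable def mk (a b : Fin 3 → ℝ) : Form :=
  WithLp.toLp 2 ![a 0, a 1, a 2, b 0, b 1, b 2]

/-- The contraction by `e₀` in spatial coordinates. -/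
def lo (u : Form) : Fin 3 → ℝ := ![u 0, u 1, u 2]

/-- The spatial part. -/
def hi (u : Form) : Fin 3 → ℝ := ![u 3, u 4, u 5]

/-- Cross product. -/
def cr (a b : Fin 3 → ℝ) : Fin 3 → ℝ :=
  ![a 1 * b 2 - a 2 * b 1, a 2 * b 0 - a 0 * b 2, a 0 * b 1 - a 1 * b 0]

/-- Dot product. -/
def dt (a b : Fin 3 → ℝ) : ℝ := a 0 * b 0 + a 1 * b 1 + a 2 * b 2

/-- Triple product. -/
def tp (a b c : Fin 3 → ℝ) : ℝ := dt a (cr b c)

lemma mk_lo_hi (u : Form) : mk (lo u) (hi u) = u := by
  ext k; fin_cases k <;> simp [mk, lo, hi]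

lemma q_mk (a b a' b' : Fin 3 → ℝ) : q (mk a b) (mk a' b') = dt a b' + dt b a' := by
  simp [q, mk, dt, Matrix.cons_val]
  ring

lemma q_lo_hi (u v : Form) : q u v = dt (lo u) (hi v) + dt (hi u) (lo v) := by
  rw [← q_mk, mk_lo_hi, mk_lo_hi]

lemma dt_smul (r : ℝ) (a b : Fin 3 → ℝ) : dt a (r • b) = r * dt a b := by
  simp [dt]; ring

/-- A one-form on the quotient by the translations along `x₀`, closed. -/
structure SCF (α : V → Fin 3 → ℝ) : Prop where
  smooth : Smooth α
  inv : ∀ x, fderiv ℝ α x (e 0) = 0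
  h12 : ∀ x, fderiv ℝ α x (e 1) 1 = fderiv ℝ α x (e 2) 0
  h13 : ∀ x, fderiv ℝ α x (e 1) 2 = fderiv ℝ α x (e 3) 0
  h23 : ∀ x, fderiv ℝ α x (e 2) 2 = fderiv ℝ α x (e 3) 1

lemma scf_const (c : Fin 3 → ℝ) : SCF fun _ => c :=
  ⟨smooth_const c, by simp, by simp, by simp, by simp⟩

lemma fderiv_pi3 {α : V → Fin 3 → ℝ} (hα : Smooth α) (x u : V) (p : Fin 3) :
    fderiv ℝ (fun x => α x p) x u = fderiv ℝ α x u p := by
  rw [fderiv_apply (hα.differentiableAt x)]
  rfl

lemma smooth_mk {a b : V → Fin 3 → ℝ} (ha : Smooth a) (hb : Smooth b) :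
    Smooth fun x => mk (a x) (b x) := by
  refine ⟨contDiff_form.2 fun k => ?_, fun x n => by simp [ha.periodic x n, hb.periodic x n]⟩
  have ha' := contDiff_pi.1 ha.smooth
  have hb' := contDiff_pi.1 hb.smooth
  fin_cases k <;> simp [mk] <;> first | exact ha' _ | exact hb' _

lemma smooth_cr {a b : V → Fin 3 → ℝ} (ha : Smooth a) (hb : Smooth b) :
    Smooth fun x => cr (a x) (b x) := by
  refine ⟨contDiff_pi.2 fun p => ?_, fun x n => by simp [ha.periodic x n, hb.periodic x n]⟩
  have ha' := contDiff_pi.1 ha.smooth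
  have hb' := contDiff_pi.1 hb.smooth
  fin_cases p <;> simp [cr] <;> exact ((ha' _).mul (hb' _)).sub ((ha' _).mul (hb' _))

/-- The forms `dx₀ ∧ a` with `a` closed and invariant. -/
lemma closed_lo {a : V → Fin 3 → ℝ} (ha : SCF a) : Closed fun x => mk (a x) 0 := by
  have hs := smooth_mk ha.smooth (smooth_const 0)
  have hD : ∀ x u k, fderiv ℝ (fun x => mk (a x) 0) x u k =
      mk (fderiv ℝ a x u) 0 k := fun x u k => by
    rw [← fderiv_coordF (hs.differentiableAt x)]
    fin_cases k <;> simp [mk, fderiv_pi3 ha.smooth]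
  refine closed_of_coord (fun x => ?_) (fun x => ?_) (fun x => ?_) (fun x => ?_) <;>
    simp only [hD] <;> simp [mk, ha.h12 x, ha.h13 x, ha.h23 x]

/-- The forms `a ∧ b` with `a`, `b` closed and invariant. -/
lemma closed_hi {a b : V → Fin 3 → ℝ} (ha : SCF a) (hb : SCF b) :
    Closed fun x => mk 0 (cr (a x) (b x)) := by
  have hs := smooth_mk (smooth_const 0) (smooth_cr ha.smooth hb.smooth)
  have hD : ∀ x u k, fderiv ℝ (fun x => mk 0 (cr (a x) (b x))) x u k =
      mk 0 (cr (fderiv ℝ a x u) (b x) + cr (a x) (fderiv ℝ b x u)) k := fun x u k => by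
    rw [← fderiv_coordF (hs.differentiableAt x)]
    have hp : ∀ p p', HasFDerivAt (fun x => a x p * b x p')
        (a x p • fderiv ℝ (fun x => b x p') x + b x p' • fderiv ℝ (fun x => a x p) x) x := fun p p' =>
      (differentiableAt_pi.1 (ha.smooth.differentiableAt x) p).hasFDerivAt.fun_mul
        (differentiableAt_pi.1 (hb.smooth.differentiableAt x) p').hasFDerivAt
    fin_cases k <;> simp [mk, cr, ((hp _ _).fun_sub (hp _ _)).fderiv, fderiv_pi3 ha.smooth,
      fderiv_pi3 hb.smooth] <;> ring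
  refine closed_of_coord (fun x => ?_) (fun x => ?_) (fun x => ?_) (fun x => ?_) <;>
    simp only [hD] <;> simp [mk, cr, ha.inv x, hb.inv x]
  linear_combination (-b x 2) * ha.h12 x * 0 + (b x 0) * ha.h23 x - (b x 1) * ha.h13 x
    + (b x 2) * ha.h12 x - (a x 0) * hb.h23 x + (a x 1) * hb.h13 x - (a x 2) * hb.h12 x

/-- The contraction of an invariant closed form. -/
lemma scf_lo {ω : V → Form} (hs : Smooth ω) (hc : Closed ω) (hi' : Inv 0 ω) :
    SCF fun x => lo (ω x) := by
  have hsm : Smooth fun x => lo (ω x) := by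
    refine ⟨contDiff_pi.2 fun p => ?_, fun x n => by simp [hs.periodic x n]⟩
    fin_cases p <;> simpa [lo] using contDiff_form.1 hs.smooth _
  have h0 : ∀ x, fderiv ℝ ω x (e 0) = 0 := fun x => by
    have h := (hs.differentiableAt x).lineDeriv_eq_fderiv (v := e 0)
    rw [← h, lineDeriv, show (fun t : ℝ => ω (x + t • e 0)) = fun _ => ω x from funext (hi' x)]
    simp
  have hD : ∀ x u p, fderiv ℝ (fun x => lo (ω x)) x u p = lo (fderiv ℝ ω x u) p := fun x u p => by
    rw [← fderiv_pi3 hsm]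
    fin_cases p <;> simp [lo, fderiv_coordF (hs.differentiableAt x)]
  refine ⟨hsm, fun x => ?_, fun x => ?_, fun x => ?_, fun x => ?_⟩
  · funext p; rw [hD, h0]; fin_cases p <;> simp [lo]
  all_goals
    simp only [hD]
    have c1 := hc x (e 0) (e 1) (e 2)
    have c2 := hc x (e 0) (e 1) (e 3)
    have c3 := hc x (e 0) (e 2) (e 3)
    simp [ev_def, e] at c1 c2 c3
    have z : fderiv ℝ ω x (Pi.single 0 1) = 0 := h0 x
    simp [z] at c1 c2 c3
    simp [lo, e]
    linarith

/-- Componentwise mean. -/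
noncomputable def mv (a : V → Fin 3 → ℝ) : Fin 3 → ℝ := fun p => ∫ x in cube, a x p

lemma mean_mk {a b : V → Fin 3 → ℝ} (ha : Smooth a) (hb : Smooth b) :
    mean (fun x => mk (a x) (b x)) = mk (mv a) (mv b) := by
  ext k
  rw [mean, show (∫ x in cube, mk (a x) (b x)) k = ∫ x in cube, mk (a x) (b x) k from
    ((EuclideanSpace.proj (𝕜 := ℝ) k).integral_comp_comm
      (integrable_cube (smooth_mk ha hb).smooth.continuous)).symm]
  fin_cases k <;> simp [mk, mv]

lemma mv_const (c : Fin 3 → ℝ) : mv (fun _ => c) = c := by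
  funext p; simp [mv]

/-- `∫ (a ∧ b ∧ c)` is the triple product of the means, up to the choice of slots. -/
lemma int_tp {a b : V → Fin 3 → ℝ} (ha : SCF a) (hb : SCF b) (g : Fin 3 → ℝ) :
    ∫ x in cube, dt g (cr (a x) (b x)) = dt g (cr (mv a) (mv b)) := by
  have hs := smooth_mk ha.smooth (smooth_const (0 : Fin 3 → ℝ))
  have hb' := smooth_mk (smooth_const (0 : Fin 3 → ℝ)) (smooth_cr hb.smooth (smooth_const g))
  have h' := int_q hs (closed_lo ha) hb' (closed_hi hb (scf_const g))
  rw [mean_mk ha.smooth (smooth_const 0),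
    mean_mk (smooth_const 0) (smooth_cr hb.smooth (smooth_const g))] at h'
  have hl : mv (fun x => cr (b x) g) = cr (mv b) g := by
    funext p
    have hi : ∀ i j, Integrable (fun x => b x i * g j) (volume.restrict cube) := fun i j =>
      integrable_cube (((continuous_apply i).comp hb.smooth.smooth.continuous).mul continuous_const)
    fin_cases p <;> simp [mv, cr, integral_sub (hi _ _) (hi _ _), integral_mul_const]
  simp only [q_mk, mv_const, hl] at h'
  have e1 : ∀ u v w : Fin 3 → ℝ, dt u (cr v w) + dt 0 0 = dt w (cr u v) := fun u v w => by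
    simp [dt, cr]; ring
  simp only [e1] at h'
  exact h'

/-- The mean of a wedge of closed invariant one-forms is the wedge of the means. -/
lemma mv_cr {a b : V → Fin 3 → ℝ} (ha : SCF a) (hb : SCF b) :
    mv (fun x => cr (a x) (b x)) = cr (mv a) (mv b) := by
  funext p
  have h := int_tp ha hb (Pi.single p 1)
  have hp : ∀ v : Fin 3 → ℝ, dt (Pi.single p 1) v = v p := fun v => by
    fin_cases p <;> simp [dt]
  simpa [hp, mv] using h

lemma int_det {a b c : V → Fin 3 → ℝ} (ha : SCF a) (hb : SCF b) (hc : SCF c) :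
    ∫ x in cube, tp (a x) (b x) (c x) = tp (mv a) (mv b) (mv c) := by
  have h := int_q (smooth_mk ha.smooth (smooth_const 0)) (closed_lo ha)
    (smooth_mk (smooth_const 0) (smooth_cr hb.smooth hc.smooth)) (closed_hi hb hc)
  rw [mean_mk ha.smooth (smooth_const 0),
    mean_mk (smooth_const 0) (smooth_cr hb.smooth hc.smooth), mv_cr hb hc] at h
  have e0 : dt (0 : Fin 3 → ℝ) 0 = 0 := by simp [dt]
  simpa [q_mk, mv_const, e0, tp] using h

lemma closed_smul {α : V → Form} (hα : Smooth α) (hc : Closed α) (r : ℝ) :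
    Closed fun x => r • α x := fun x u v w => by
  simp only [fderiv_fun_const_smul (hα.differentiableAt x), smul_apply, ev_smul]
  linear_combination r * hc x u v w

/-- An invariant normalized hypersymplectic triple is joined by a segment of cohomologous
hypersymplectic triples to an explicit hyperkaehler triple. -/
theorem exists_hk_of_inv {ω : Fin 3 → V → Form} (hω : Hypersymplectic ω) (hn : Normalized ω)
    (hI : ∀ i, Inv 0 (ω i)) :
    ∃ τ, (∀ i, Coh (ω i) (τ i)) ∧ HyperkahlerTriple τ ∧ SegPos ω τ := by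
  set α : Fin 3 → V → Fin 3 → ℝ := fun i x => lo (ω i x) with hα
  have hscf : ∀ i, SCF (α i) := fun i => scf_lo (hω.smooth i) (hω.closed i) (hI i)
  have hhi : ∀ i, Smooth fun x => hi (ω i x) := fun i => by
    refine ⟨contDiff_pi.2 fun p => ?_, fun x n => by simp [(hω.smooth i).periodic x n]⟩
    fin_cases p <;> simpa [hi] using contDiff_form.1 (hω.smooth i).smooth _
  set A : Fin 3 → Fin 3 → ℝ := fun i => mv (α i) with hA
  set B : Fin 3 → Fin 3 → ℝ := fun i => mv fun x => hi (ω i x) with hB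
  have hm : ∀ i, mean (ω i) = mk (A i) (B i) := fun i => by
    rw [← mean_mk (hscf i).smooth (hhi i)]
    congr 1
    funext x
    exact (mk_lo_hi _).symm
  have hG : ∀ i j, dt (A i) (B j) + dt (B i) (A j) = if i = j then 1 else 0 := fun i j => by
    rw [← q_mk, ← hm, ← hm, ← int_q (hω.smooth i) (hω.closed i) (hω.smooth j) (hω.closed j)]
    exact hn i j
  set T : V → ℝ := fun x => tp (α 0 x) (α 1 x) (α 2 x) with hT
  have hT0 : ∀ x, T x ≠ 0 := fun x h0 => by
    have hdet : (Matrix.of fun i p => α i x p).det = 0 := by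
      rw [← h0, Matrix.det_fin_three]
      simp [hT, tp, dt, cr]
      ring
    obtain ⟨d, hd, hd0⟩ := Matrix.exists_vecMul_eq_zero_iff.2 hdet
    have h := hω.pos x d hd
    have k0 := congrFun hd0 0
    have k1 := congrFun hd0 1
    have k2 := congrFun hd0 2
    simp [Matrix.vecMul, dotProduct, Fin.sum_univ_three, hα, lo] at k0 k1 k2
    simp [q, comb, Fin.sum_univ_three, k0, k1, k2] at h
  have hTc : Continuous T := by
    have hc : ∀ i p, Continuous fun x => α i x p := fun i p =>
      (continuous_apply p).comp (hscf i).smooth.smooth.continuous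
    simp only [hT, tp, dt, cr, Matrix.cons_val_zero, Matrix.cons_val_one, Matrix.cons_val]
    fun_prop
  set D : ℝ := tp (A 0) (A 1) (A 2) with hD
  have hTD : ∫ x in cube, T x = D := int_det (hscf 0) (hscf 1) (hscf 2)
  have hsign : ∀ x, 0 < T x / D := by
    rcases (hT0 0).lt_or_gt with h | h
    · have hall : ∀ x, T x < 0 := fun x => by
        by_contra hle
        obtain ⟨z, hz⟩ := intermediate_value_univ 0 x hTc ⟨h.le, not_lt.1 hle⟩
        exact hT0 z hz
      have hneg : 0 < ∫ x in cube, -T x := integral_cube_pos hTc.neg fun x => neg_pos.2 (hall x)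
      rw [integral_neg, hTD] at hneg
      exact fun x => div_pos_of_neg_of_neg (hall x) (neg_pos.1 hneg)
    · have hall : ∀ x, 0 < T x := fun x => by
        by_contra hle
        obtain ⟨z, hz⟩ := intermediate_value_univ x 0 hTc ⟨not_lt.1 hle, h.le⟩
        exact hT0 z hz
      exact fun x => div_pos (hall x) (hTD ▸ integral_cube_pos hTc hall)
  have hD0 : D ≠ 0 := fun h0 => by simpa [h0] using hsign 0
  set c : ℝ := 1 / (2 * D) with hc
  set γ : Fin 3 → ℝ :=
    (1 / D) • (dt (A 2) (B 1) • A 0 + dt (A 0) (B 2) • A 1 + dt (A 1) (B 0) • A 2) with hγ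
  have hlin : ∀ w, dt γ w = (1 / D) * (dt (A 2) (B 1) * dt (A 0) w + dt (A 0) (B 2) * dt (A 1) w
      + dt (A 1) (B 0) * dt (A 2) w) := fun w => by
    simp [hγ, dt]; ring
  have e5 : ∀ a b : Fin 3 → ℝ, dt a (cr a b) = 0 ∧ dt a (cr b a) = 0 := fun a b => by
    constructor <;> simp [dt, cr] <;> ring
  have d1' : dt (A 1) (cr (A 2) (A 0)) = D := by simp [hD, tp, dt, cr]; ring
  have d2' : dt (A 2) (cr (A 0) (A 1)) = D := by simp [hD, tp, dt, cr]; ring
  have d0' : dt (A 0) (cr (A 1) (A 2)) = D := rfl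
  have g0 : dt γ (cr (A 1) (A 2)) = dt (A 2) (B 1) := by
    rw [hlin, d0', (e5 _ _).1, (e5 _ _).2]; field_simp; ring
  have g1 : dt γ (cr (A 2) (A 0)) = dt (A 0) (B 2) := by
    rw [hlin, d1', (e5 _ _).2, (e5 _ _).1]; field_simp; ring
  have g2 : dt γ (cr (A 0) (A 1)) = dt (A 1) (B 0) := by
    rw [hlin, d2', (e5 _ _).1, (e5 _ _).2]; field_simp; ring
  have hBeq : ∀ i, B i = cr γ (A i) + c • cr (A (i + 1)) (A (i + 2)) := by
    intro i
    set v := B i - (cr γ (A i) + c • cr (A (i + 1)) (A (i + 2))) with hv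
    have hk : ∀ k, dt (A k) v = 0 := fun k => by
      have e1 : ∀ a u w : Fin 3 → ℝ, dt a (B i - (u + c • w)) = dt a (B i) - dt a u - c * dt a w :=
        fun a u w => by simp [dt]; ring
      have e2 : ∀ a b : Fin 3 → ℝ, dt a (cr γ b) = dt γ (cr b a) := fun a b => by
        simp [dt, cr]; ring
      have e3 : ∀ a b : Fin 3 → ℝ, dt γ (cr a b) = -dt γ (cr b a) := fun a b => by
        simp [dt, cr]; ring
      have e4 : ∀ a : Fin 3 → ℝ, dt γ (cr a a) = 0 := fun a => by simp [dt, cr]; ring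
      have hcD : c * D = 1 / 2 := by rw [hc]; field_simp
      have hG' : ∀ i j, dt (A i) (B j) + dt (A j) (B i) = if i = j then 1 else 0 := fun i j => by
        rw [← hG i j]; simp [dt]; ring
      have G00 := hG' 0 0; have G11 := hG' 1 1; have G22 := hG' 2 2
      have G01 := hG' 0 1; have G02 := hG' 0 2; have G12 := hG' 1 2
      simp at G00 G11 G22 G01 G02 G12
      rw [hv, e1, e2]
      fin_cases i <;> fin_cases k <;>
        simp [e4, e3 (A 2) (A 1), e3 (A 0) (A 2), e3 (A 1) (A 0), g0, g1, g2,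
          (e5 _ _).1, (e5 _ _).2, d0', d1', d2', hcD] <;> linarith
    have hcr : D • v = dt (A 0) v • cr (A 1) (A 2) + dt (A 1) v • cr (A 2) (A 0)
        + dt (A 2) v • cr (A 0) (A 1) := by
      funext p
      fin_cases p <;> simp [hD, tp, dt, cr] <;> ring
    rw [hk, hk, hk, zero_smul, zero_smul, zero_smul, add_zero, add_zero] at hcr
    exact sub_eq_zero.1 ((smul_eq_zero.1 hcr).resolve_left hD0)
  set τ : Fin 3 → V → Form := fun i x =>
    mk (α i x) (cr γ (α i x) + c • cr (α (i + 1) x) (α (i + 2) x)) with hτ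
  have hb1 : ∀ i, Smooth fun x => cr γ (α i x) := fun i =>
    smooth_cr (smooth_const γ) (hscf i).smooth
  have hb2 : ∀ i, Smooth fun x => cr (α (i + 1) x) (α (i + 2) x) := fun i =>
    smooth_cr (hscf _).smooth (hscf _).smooth
  have hb : ∀ i, Smooth fun x => cr γ (α i x) + c • cr (α (i + 1) x) (α (i + 2) x) := fun i =>
    ⟨(hb1 i).smooth.add ((hb2 i).smooth.const_smul c),
      fun x n => by simp [(hb1 i).periodic x n, (hb2 i).periodic x n]⟩
  have hτs : ∀ i, Smooth (τ i) := fun i => smooth_mk (hscf i).smooth (hb i)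
  have hτc : ∀ i, Closed (τ i) := fun i => by
    have s1 := smooth_mk (hscf i).smooth (smooth_const (0 : Fin 3 → ℝ))
    have s2 := smooth_mk (smooth_const (0 : Fin 3 → ℝ)) (hb1 i)
    have s3 := smooth_mk (smooth_const (0 : Fin 3 → ℝ)) (hb2 i)
    have s12 : Smooth fun x => mk (α i x) 0 + mk 0 (cr γ (α i x)) :=
      ⟨s1.smooth.add s2.smooth, fun x n => by simp [(hscf i).smooth.periodic x n]⟩
    have s3' : Smooth fun x => c • mk 0 (cr (α (i + 1) x) (α (i + 2) x)) :=
      ⟨s3.smooth.const_smul c,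
        fun x n => by simp [(hscf (i + 1)).smooth.periodic x n, (hscf (i + 2)).smooth.periodic x n]⟩
    have h := closed_add s12 s3'
      (closed_add s1 s2 (closed_lo (hscf i)) (closed_hi (scf_const γ) (hscf i)))
      (closed_smul s3 (closed_hi (hscf (i + 1)) (hscf (i + 2))) c)
    convert h using 1
    funext x
    ext k
    fin_cases k <;> simp [hτ, mk]
  have hτm : ∀ i, mean (τ i) = mean (ω i) := fun i => by
    rw [hm, hBeq, hτ, mean_mk (hscf i).smooth (hb i)]
    congr 1
    funext p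
    have h1 := congrFun (mv_cr (scf_const γ) (hscf i)) p
    have h2 := congrFun (mv_cr (hscf (i + 1)) (hscf (i + 2))) p
    simp only [mv_const] at h1
    simp only [mv] at h1 h2 ⊢
    simp only [Pi.add_apply, Pi.smul_apply, smul_eq_mul]
    rw [integral_add, integral_const_mul, h1, h2]
    · exact integrable_cube ((continuous_apply p).comp (hb1 i).smooth.continuous)
    · exact integrable_cube (((continuous_apply p).comp (hb2 i).smooth.continuous).const_mul c)
  have hq : ∀ x i j, q (τ i x) (τ j x) = if i = j then T x / D else 0 := fun x i j => by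
    have h2c : T x / D = 2 * c * T x := by rw [hc]; field_simp
    rw [h2c]
    simp only [hτ, hT, q_mk]
    fin_cases i <;> fin_cases j <;> simp [tp, dt, cr] <;> ring
  have hτp : ∀ x, ∀ d : Fin 3 → ℝ, d ≠ 0 → 0 < q (comb d τ x) (comb d τ x) := fun x d hd => by
    rw [q_comb]
    simp only [hq]
    obtain ⟨i, hi⟩ := Function.ne_iff.1 hd
    simp only [mul_ite, mul_zero, Finset.sum_ite_eq, Finset.mem_univ, ↓reduceIte]
    refine Finset.sum_pos' (fun j _ => mul_nonneg (mul_self_nonneg _) (hsign x).le)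
      ⟨i, Finset.mem_univ i, mul_pos (mul_self_pos.2 hi) (hsign x)⟩
  refine ⟨τ, fun i => coh_of_mean_eq (hω.smooth i) (hω.closed i) (hτs i) (hτc i) (hτm i).symm,
    ⟨⟨hτs, hτc, hτp⟩, fun x => T x / D, hsign, hq⟩, fun r hr x d hd => ?_⟩
  have hlow : lo (comb d τ x) = lo (comb d ω x) := by
    funext p
    fin_cases p <;> simp [comb, Fin.sum_univ_three, hτ, hα, mk, lo]
  have haff : ∀ u v : Form, lo v = lo u →
      q ((1 - r) • u + r • v) ((1 - r) • u + r • v) = (1 - r) * q u u + r * q v v := by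
    intro u v huv
    rw [q_lo_hi, q_lo_hi u u, q_lo_hi v v, huv]
    have k0 := congrFun huv 0
    have k1 := congrFun huv 1
    have k2 := congrFun huv 2
    simp [lo] at k0 k1 k2
    simp [dt, lo, hi, k0, k1, k2]
    ring
  rw [haff _ _ hlow]
  rcases eq_or_lt_of_le hr.1 with h0 | h0
  · rw [← h0]; linarith [hω.pos x d hd]
  · nlinarith [mul_pos h0 (hτp x d hd), mul_nonneg (sub_nonneg.2 hr.2) (hω.pos x d hd).le]

end Vale.Agent.P247.Torus
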