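import Vale.Agent.P247.Torus.Invariant

/-!
P247: deformation to hyperkaehler triples for three classes of hypersymplectic triples on the
four-torus.
-/

open MeasureTheory Set Filter Topology
open scoped BigOperators

namespace Vale.Agent.P247.Torus

open Vale.Agent.P204.Torus

/-- The first alternative: two independent combinations are invariant along `x₀`. -/
def TwoInvariant (ω : Fin 3 → V → Form) : Prop :=
  ∃ a b : Fin 3 → ℝ, LinearIndependent ℝ ![a, b] ∧ Inv 0 (comb a ω) ∧ Inv 0 (comb b ω)

/-- The second alternative: the coordinates `23, 31, 12`, that is the restrictions to the slices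
`x₀ = const`, do not depend on `x₀`. -/
def SliceInvariant (ω : Fin 3 → V → Form) : Prop :=
  ∀ i, ∀ k : Fin 6, 3 ≤ k → Inv 0 fun x => ω i x k

/-- The third alternative: every combination pairs with its mean more than `-√(q q)`. -/
def PositiveAgainstMean (ω : Fin 3 → V → Form) : Prop :=
  ∀ x, ∀ d : Fin 3 → ℝ, d ≠ 0 →
    0 < q (comb d ω x) (comb d (fun i _ => mean (ω i)) x) +
      Real.sqrt (q (comb d ω x) (comb d ω x) * ∑ i, d i ^ 2)

lemma comb_path (d : Fin 3 → ℝ) (ω σ : Fin 3 → V → Form) (r : ℝ) (x : V) :
    comb d (fun i x => (1 - r) • ω i x + r • σ i x) x =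
      (1 - r) • comb d ω x + r • comb d σ x := by
  simp only [comb, Fin.sum_univ_three]
  module

/-- Two positive segments give a cohomologous deformation. -/
lemma deformation_of_segments {ω σ τ : Fin 3 → V → Form} (hω : Hypersymplectic ω)
    (hσ : ∀ i, Coh (ω i) (σ i)) (hτ : ∀ i, Coh (ω i) (τ i)) (h1 : SegPos ω σ)
    (h2 : SegPos σ τ) :
    ∃ W, CohomologousDeformation ω W ∧ W 1 = τ := by
  refine ⟨fun t i x => ω i x + Real.smoothTransition (2 * t) • (σ i x - ω i x) +
    Real.smoothTransition (2 * t - 1) • (τ i x - σ i x), ⟨fun i => ?_, fun t ht => ?_, ?_, ?_⟩, ?_⟩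
  · have hs := ((hσ i).smooth (hω.smooth i)).smooth.comp (contDiff_snd (𝕜 := ℝ) (E := ℝ) (F := V))
    have hw := (hω.smooth i).smooth.comp (contDiff_snd (𝕜 := ℝ) (E := ℝ) (F := V))
    have ht := ((hτ i).smooth (hω.smooth i)).smooth.comp (contDiff_snd (𝕜 := ℝ) (E := ℝ) (F := V))
    exact (hw.add ((Real.smoothTransition.contDiff.comp (contDiff_const.mul contDiff_fst)).smul
      (hs.sub hw))).add ((Real.smoothTransition.contDiff.comp
        ((contDiff_const.mul contDiff_fst).sub contDiff_const)).smul (ht.sub hs))
  · have hc : ∀ i, Coh (ω i) fun x => ω i x + Real.smoothTransition (2 * t) • (σ i x - ω i x) +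
        Real.smoothTransition (2 * t - 1) • (τ i x - σ i x) := fun i => (hσ i).combine (hτ i) _ _
    refine ⟨fun i => (hc i).smooth (hω.smooth i),
      fun i => (hc i).closed (hω.smooth i) (hω.closed i), fun x d hd => ?_⟩
    rcases le_total t (1 / 2) with ht' | ht'
    · have h := h1 _ ⟨Real.smoothTransition.nonneg (2 * t), Real.smoothTransition.le_one _⟩ x d hd
      rw [← comb_path] at h
      convert h using 3 <;>
      · funext i x
        rw [Real.smoothTransition.zero_of_nonpos (by linarith : 2 * t - 1 ≤ 0)]
        module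
    · have h := h2 _ ⟨Real.smoothTransition.nonneg (2 * t - 1), Real.smoothTransition.le_one _⟩
        x d hd
      rw [← comb_path] at h
      convert h using 3 <;>
      · funext i x
        rw [Real.smoothTransition.one_of_one_le (by linarith : 1 ≤ 2 * t)]
        module
  · funext i x
    simp [Real.smoothTransition.zero_of_nonpos]
  · intro t _ i
    exact (hσ i).combine (hτ i) _ _
  · funext i x
    norm_num [Real.smoothTransition.one_of_one_le]

/-- A normalized hypersymplectic triple in one of the three classes deforms, through cohomologous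
hypersymplectic triples, to a hyperkaehler triple. -/
theorem exists_deformation {ω : Fin 3 → V → Form} (hω : Hypersymplectic ω) (hn : Normalized ω)
    (h : TwoInvariant ω ∨ SliceInvariant ω ∨ PositiveAgainstMean ω) :
    ∃ W, CohomologousDeformation ω W ∧ HyperkahlerTriple (W 1) := by
  have hmm : ∀ i j, q (mean (ω i)) (mean (ω j)) = if i = j then 1 else 0 := fun i j => by
    rw [← int_q (hω.smooth i) (hω.closed i) (hω.smooth j) (hω.closed j)]
    exact hn i j
  rcases h with h | h | h
  rotate_left 2
  · have hc := fun i => coh_mean (hω.smooth i) (hω.closed i)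
    have hs := segPos_mean hω hn h
    have hpos : ∀ x, ∀ d : Fin 3 → ℝ, d ≠ 0 →
        0 < q (comb d (fun i _ => mean (ω i)) x) (comb d (fun i _ => mean (ω i)) x) := fun x d hd => by
      simpa using hs 1 ⟨zero_le_one, le_rfl⟩ x d hd
    obtain ⟨W, hW, hW1⟩ := deformation_of_segments hω hc hc hs fun r _ x d hd => by
      rw [← add_smul, sub_add_cancel, one_smul]
      exact hpos x d hd
    refine ⟨W, hW, ?_⟩
    rw [hW1]
    exact ⟨⟨fun i => smooth_const _, fun i => closed_const _, hpos⟩, fun _ => 1,
      fun _ => one_pos, fun x i j => hmm i j⟩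
  all_goals
    have hseg : SegPos ω fun i => avg 0 (ω i) := by
      first
      | (obtain ⟨a, b, hab, ha, hb⟩ := h; exact segPos_two hω hab ha hb)
      | exact segPos_slice hω h
    have hc := fun i => coh_avg 0 (hω.smooth i) (hω.closed i)
    have hσ : Hypersymplectic fun i => avg 0 (ω i) :=
      ⟨fun i => smooth_avg 0 (hω.smooth i), fun i => (hc i).closed (hω.smooth i) (hω.closed i),
        fun x d hd => by simpa using hseg 1 ⟨zero_le_one, le_rfl⟩ x d hd⟩
    have hnσ : Normalized fun i => avg 0 (ω i) := fun i j => by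
      rw [int_q (hσ.smooth i) (hσ.closed i) (hσ.smooth j) (hσ.closed j),
        (hc i).mean_eq (hω.smooth i), (hc j).mean_eq (hω.smooth j)]
      exact hmm i j
    obtain ⟨τ, hτ, hhk, hseg2⟩ := exists_hk_of_inv hσ hnσ fun i =>
      inv_avg 0 (hω.smooth i).smooth.continuous (hω.smooth i).periodic
    obtain ⟨W, hW, hW1⟩ := deformation_of_segments hω hc (fun i => (hc i).trans (hτ i)) hseg hseg2
    refine ⟨W, hW, ?_⟩
    rw [hW1]
    exact hhk

end Vale.Agent.P247.Torus
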